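import Vale.Agent.Lib.P340.Finite

namespace Vale.Agent.Results.P340.FiniteSorts

open Vale.Agent.Lib.P340

universe u

/-- If weak normalization implies strong normalization for every pure type system whose
set of sorts is `Fin n`, then it does so for every pure type system (any set of sorts). -/
theorem result :
    (∀ (n : ℕ) (Ax : Fin n → Fin n → Prop) (Rl : Fin n → Fin n → Fin n → Prop),
      WeaklyNormalizing Ax Rl → StronglyNormalizing Ax Rl) →
    ∀ (S : Type u) (Ax : S → S → Prop) (Rl : S → S → S → Prop),
      WeaklyNormalizing Ax Rl → StronglyNormalizing Ax Rl :=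
  bgk_of_finite

end Vale.Agent.Results.P340.FiniteSorts
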